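import Mathlib

/-!
Primitive recursiveness of the arithmetic of `ℕ` (power, factorial, gcd), `ℤ` and `ℚ` for
Mathlib's default `Primcodable` instances (those coming from `Denumerable`).
-/

set_option autoImplicit false

namespace Crest.Agent.Lib.Computability

open Encodable Denumerable

/-! ### Natural numbers -/

theorem nat_pow : Primrec₂ ((· ^ ·) : ℕ → ℕ → ℕ) :=
  Primrec₂.unpaired'.1 Nat.Primrec.pow

theorem nat_dvd : PrimrecRel ((· ∣ ·) : ℕ → ℕ → Prop) := by
  refine (Primrec.eq.comp (Primrec.nat_mod.comp Primrec.snd Primrec.fst)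
    (Primrec.const 0)).primrecRel.of_eq ?_
  intro a b
  simp [Nat.dvd_iff_mod_eq_zero]

theorem nat_factorial : Primrec Nat.factorial := by
  have h : Primrec (Nat.rec (motive := fun _ => ℕ) 1 (fun n ih => (n + 1) * ih)) :=
    Primrec.nat_rec₁ 1 (Primrec.nat_mul.comp₂ (Primrec.succ.comp₂ Primrec₂.left) Primrec₂.right)
  refine h.of_eq fun n => ?_
  induction n with
  | zero => rfl
  | succ n ih => simp [Nat.factorial_succ, ← ih]

theorem nat_gcd : Primrec₂ Nat.gcd := by
  have hrel : PrimrecRel (fun (p : ℕ × ℕ) (k : ℕ) => k ∣ p.1 ∧ k ∣ p.2) :=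
    PrimrecPred.and (nat_dvd.comp Primrec.snd (Primrec.fst.comp Primrec.fst))
      (nat_dvd.comp Primrec.snd (Primrec.snd.comp Primrec.fst))
  have h := Primrec.nat_findGreatest (f := fun p : ℕ × ℕ => p.1 + p.2)
    (Primrec.nat_add.comp Primrec.fst Primrec.snd) hrel
  refine Primrec.of_eq h ?_
  rintro ⟨a, b⟩
  simp only
  rw [Nat.findGreatest_eq_iff]
  by_cases hab : a + b = 0
  · have ha : a = 0 := by omega
    have hb : b = 0 := by omega
    subst ha hb
    refine ⟨by simp, by simp, fun n h1 h2 => ?_⟩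
    simp at h1 h2
    omega
  · have hpos : 0 < Nat.gcd a b := by
      rcases Nat.eq_zero_or_pos (Nat.gcd a b) with h0 | h0
      · rw [Nat.gcd_eq_zero_iff] at h0; omega
      · exact h0
    refine ⟨?_, fun _ => ⟨Nat.gcd_dvd_left a b, Nat.gcd_dvd_right a b⟩, ?_⟩
    · exact Nat.le_of_dvd (by omega) (dvd_add (Nat.gcd_dvd_left a b) (Nat.gcd_dvd_right a b))
    · rintro k hk _ ⟨h1, h2⟩
      exact absurd (Nat.le_of_dvd hpos (Nat.dvd_gcd h1 h2)) (by omega)

theorem nat_count {p : ℕ → Prop} [DecidablePred p] (hp : PrimrecPred p) :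
    Primrec (Nat.count p) := by
  have h : Primrec (Nat.rec (motive := fun _ => ℕ) 0 (fun n ih => ih + if p n then 1 else 0)) :=
    Primrec.nat_rec₁ 0 (Primrec.nat_add.comp Primrec.snd
      (Primrec.ite (hp.comp Primrec.fst) (Primrec.const 1) (Primrec.const 0))).to₂
  refine h.of_eq fun n => ?_
  induction n with
  | zero => simp
  | succ n ih => simp [Nat.count_succ, ← ih]

/-! ### Integers -/

theorem int_encode_ofNat (n : ℕ) :
    @encode ℤ (Primcodable.ofDenumerable ℤ).toEncodable (n : ℤ) = 2 * n := rfl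

theorem int_encode_negSucc (n : ℕ) :
    @encode ℤ (Primcodable.ofDenumerable ℤ).toEncodable (Int.negSucc n) = 2 * n + 1 := rfl

theorem int_toNat : Primrec Int.toNat := by
  have he : Primrec (@encode ℤ (Primcodable.ofDenumerable ℤ).toEncodable) := Primrec.encode
  refine (Primrec.ite (Primrec.eq.comp (Primrec.nat_mod.comp he (Primrec.const 2))
    (Primrec.const 0)) (Primrec.nat_div.comp he (Primrec.const 2)) (Primrec.const 0)).of_eq ?_
  intro z
  cases z with
  | ofNat n =>
    simp only [Int.ofNat_eq_natCast, int_encode_ofNat]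
    simp
  | negSucc n =>
    simp only [int_encode_negSucc]
    simp

theorem int_negToNat : Primrec (fun z : ℤ => (-z).toNat) := by
  have he : Primrec (@encode ℤ (Primcodable.ofDenumerable ℤ).toEncodable) := Primrec.encode
  refine (Primrec.ite (Primrec.eq.comp (Primrec.nat_mod.comp he (Primrec.const 2))
    (Primrec.const 0)) (Primrec.const 0)
    (Primrec.succ.comp (Primrec.nat_div.comp he (Primrec.const 2)))).of_eq ?_
  intro z
  cases z with
  | ofNat n =>
    simp only [Int.ofNat_eq_natCast, int_encode_ofNat]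
    simp
  | negSucc n =>
    simp only [int_encode_negSucc]
    simp
    omega

theorem int_natSub : Primrec₂ (fun a b : ℕ => (a : ℤ) - (b : ℤ)) := by
  refine Primrec₂.encode_iff.1 ?_
  refine (Primrec.ite (Primrec.nat_le.comp Primrec.snd Primrec.fst)
    (Primrec.nat_double.comp (Primrec.nat_sub.comp Primrec.fst Primrec.snd))
    (Primrec.nat_double_succ.comp (Primrec.pred.comp
      (Primrec.nat_sub.comp Primrec.snd Primrec.fst)))).to₂.of_eq ?_
  intro a b
  simp only
  split_ifs with h
  · rw [← Nat.cast_sub h, int_encode_ofNat]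
  · have : (a : ℤ) - b = Int.negSucc (b - a).pred := by
      rw [Int.negSucc_eq, Nat.pred_eq_sub_one]; omega
    rw [this, int_encode_negSucc]

theorem int_natCast : Primrec (fun a : ℕ => (a : ℤ)) :=
  (int_natSub.comp Primrec.id (Primrec.const 0)).of_eq fun a => by simp

theorem int_natAbs : Primrec Int.natAbs :=
  (Primrec.nat_add.comp int_toNat int_negToNat).of_eq fun z => by omega

theorem int_neg : Primrec (fun z : ℤ => -z) :=
  (int_natSub.comp int_negToNat int_toNat).of_eq fun z => by omega

theorem int_add : Primrec₂ ((· + ·) : ℤ → ℤ → ℤ) :=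
  (int_natSub.comp
    (Primrec.nat_add.comp (int_toNat.comp Primrec.fst) (int_toNat.comp Primrec.snd))
    (Primrec.nat_add.comp (int_negToNat.comp Primrec.fst)
      (int_negToNat.comp Primrec.snd))).to₂.of_eq fun z w => by
        simp only; omega

theorem int_mul : Primrec₂ ((· * ·) : ℤ → ℤ → ℤ) :=
  (int_natSub.comp
    (Primrec.nat_add.comp
      (Primrec.nat_mul.comp (int_toNat.comp Primrec.fst) (int_toNat.comp Primrec.snd))
      (Primrec.nat_mul.comp (int_negToNat.comp Primrec.fst) (int_negToNat.comp Primrec.snd)))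
    (Primrec.nat_add.comp
      (Primrec.nat_mul.comp (int_toNat.comp Primrec.fst) (int_negToNat.comp Primrec.snd))
      (Primrec.nat_mul.comp (int_negToNat.comp Primrec.fst)
        (int_toNat.comp Primrec.snd)))).to₂.of_eq fun z w => by
    have hz : z = (z.toNat : ℤ) - ((-z).toNat : ℤ) := by omega
    have hw : w = (w.toNat : ℤ) - ((-w).toNat : ℤ) := by omega
    simp only
    push_cast
    conv_rhs => rw [hz, hw]
    ring

theorem int_le : PrimrecRel ((· ≤ ·) : ℤ → ℤ → Prop) :=
  (Primrec.nat_le.comp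
    (Primrec.nat_add.comp (int_toNat.comp Primrec.fst) (int_negToNat.comp Primrec.snd))
    (Primrec.nat_add.comp (int_toNat.comp Primrec.snd)
      (int_negToNat.comp Primrec.fst))).primrecRel.of_eq fun z w => by
        simp only; omega

/-! ### Rationals -/

/-- The code of a rational number under the `Encodable` instance (not the `Denumerable` one). -/
def ratCode (q : ℚ) : ℕ :=
  Nat.pair (@encode ℤ (Primcodable.ofDenumerable ℤ).toEncodable q.num) q.den

/-- The set of codes. -/
def IsRatCode (m : ℕ) : Prop :=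
  0 < m.unpair.2 ∧ Nat.gcd (ofNat ℤ m.unpair.1).natAbs m.unpair.2 = 1

instance : DecidablePred IsRatCode := fun _ => inferInstanceAs (Decidable (_ ∧ _))

theorem ratCode_eq (q : ℚ) : @encode ℚ Rat.instEncodable q = ratCode q := by
  cases q; rfl

theorem ratCode_injective : Function.Injective ratCode := by
  intro q r h
  rw [← ratCode_eq, ← ratCode_eq] at h
  exact @encode_injective ℚ Rat.instEncodable _ _ h

theorem isRatCode_iff (m : ℕ) : IsRatCode m ↔ ∃ q, ratCode q = m := by
  constructor
  · rintro ⟨h1, h2⟩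
    refine ⟨⟨ofNat ℤ m.unpair.1, m.unpair.2, by omega, h2⟩, ?_⟩
    simp only [ratCode]
    have : @encode ℤ (Primcodable.ofDenumerable ℤ).toEncodable (ofNat ℤ m.unpair.1)
        = m.unpair.1 := encode_ofNat _
    rw [this, Nat.pair_unpair]
  · rintro ⟨q, rfl⟩
    have : ofNat ℤ (@encode ℤ (Primcodable.ofDenumerable ℤ).toEncodable q.num) = q.num :=
      ofNat_encode _
    simp only [IsRatCode, ratCode, Nat.unpair_pair, this]
    exact ⟨q.den_pos, q.reduced⟩

theorem rat_encode_eq (q : ℚ) :
    @encode ℚ (Primcodable.ofDenumerable ℚ).toEncodable q = Nat.count IsRatCode (ratCode q) := by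
  have h : @encode ℚ (Primcodable.ofDenumerable ℚ).toEncodable q =
      (List.range (@encode ℚ Rat.instEncodable q)).countP
        (fun x => @decide (x ∈ Set.range (@encode ℚ Rat.instEncodable))
          (@decidableRangeEncode ℚ Rat.instEncodable x)) := rfl
  rw [h, ratCode_eq, Nat.count]
  congr 1
  funext x
  rw [decide_eq_decide, isRatCode_iff]
  simp only [Set.mem_range, ratCode_eq]

theorem isRatCode_primrec : PrimrecPred IsRatCode :=
  PrimrecPred.and
    (Primrec.nat_lt.comp (Primrec.const 0) (Primrec.snd.comp Primrec.unpair))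
    (Primrec.eq.comp (nat_gcd.comp (int_natAbs.comp ((Primrec.ofNat ℤ).comp
      (Primrec.fst.comp Primrec.unpair))) (Primrec.snd.comp Primrec.unpair)) (Primrec.const 1))

theorem isRatCode_sq (a : ℕ) : IsRatCode (a * a + a + 1) := by
  have : a * a + a + 1 = Nat.pair a 1 := by
    unfold Nat.pair
    split_ifs with h
    · have : a = 0 := by omega
      subst this; rfl
    · rfl
  rw [this]
  simp [IsRatCode]

theorem count_sq (n : ℕ) : n + 1 ≤ Nat.count IsRatCode (n * n + n + 2) := by
  induction n with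
  | zero =>
    have := isRatCode_sq 0
    rw [show 0 * 0 + 0 + 2 = (0 * 0 + 0 + 1) + 1 from rfl, Nat.count_succ, if_pos this]
    omega
  | succ n ih =>
    have h1 := isRatCode_sq (n + 1)
    rw [show (n + 1) * (n + 1) + (n + 1) + 2 = ((n + 1) * (n + 1) + (n + 1) + 1) + 1 from rfl,
      Nat.count_succ, if_pos h1]
    have h2 : Nat.count IsRatCode (n * n + n + 2) ≤
        Nat.count IsRatCode ((n + 1) * (n + 1) + (n + 1) + 1) :=
      Nat.count_monotone _ (by nlinarith)
    omega

theorem ratCode_primrec : Primrec ratCode := by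
  have he : Primrec (@encode ℚ (Primcodable.ofDenumerable ℚ).toEncodable) := Primrec.encode
  refine Primrec.of_graph ⟨_, Primrec.succ.comp (Primrec.nat_add.comp
    (Primrec.nat_mul.comp he he) he), fun q => ?_⟩ ?_
  · simp only [encode_nat, Nat.succ_eq_add_one]
    by_contra hlt
    set n := @encode ℚ (Primcodable.ofDenumerable ℚ).toEncodable q with hn
    have h1 := count_sq n
    have h2 : Nat.count IsRatCode (n * n + n + 2) ≤ Nat.count IsRatCode (ratCode q) :=
      Nat.count_monotone _ (by omega)
    rw [← rat_encode_eq] at h2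
    omega
  · refine (PrimrecPred.and (isRatCode_primrec.comp Primrec.snd)
      (Primrec.eq.comp ((nat_count isRatCode_primrec).comp Primrec.snd)
        (he.comp Primrec.fst))).primrecRel.of_eq ?_
    intro q m
    simp only
    constructor
    · rintro ⟨h1, h2⟩
      obtain ⟨r, rfl⟩ := (isRatCode_iff m).1 h1
      rw [← rat_encode_eq] at h2
      rw [@encode_injective ℚ (Primcodable.ofDenumerable ℚ).toEncodable _ _ h2]
    · rintro rfl
      exact ⟨(isRatCode_iff _).2 ⟨q, rfl⟩, (rat_encode_eq q).symm⟩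

theorem rat_num : Primrec Rat.num :=
  ((Primrec.ofNat ℤ).comp (Primrec.fst.comp (Primrec.unpair.comp ratCode_primrec))).of_eq
    fun q => by
      simp only [ratCode, Nat.unpair_pair]
      exact ofNat_encode _

theorem rat_den : Primrec Rat.den :=
  (Primrec.snd.comp (Primrec.unpair.comp ratCode_primrec)).of_eq
    fun q => by simp only [ratCode, Nat.unpair_pair]

theorem rat_mkRat : Primrec₂ mkRat := by
  refine Primrec₂.encode_iff.1 ?_
  have hg : Primrec (fun p : ℤ × ℕ => p.2.gcd p.1.natAbs) :=
    nat_gcd.comp Primrec.snd (int_natAbs.comp Primrec.fst)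
  have hz : PrimrecPred (fun p : ℤ × ℕ => p.2 = 0) := Primrec.eq.comp Primrec.snd (Primrec.const 0)
  have hnum : Primrec (fun p : ℤ × ℕ => (mkRat p.1 p.2).num) := by
    refine (Primrec.ite hz (Primrec.const 0) (int_natSub.comp
      (Primrec.nat_div.comp (int_toNat.comp Primrec.fst) hg)
      (Primrec.nat_div.comp (int_negToNat.comp Primrec.fst) hg))).of_eq ?_
    rintro ⟨z, d⟩
    simp only [Rat.num_mkRat]
    split_ifs with h
    · rfl
    · obtain ⟨n, rfl | rfl⟩ := z.eq_nat_or_neg
      · simp
      · have hd : ((d.gcd n : ℕ) : ℤ) ∣ (n : ℤ) := Int.natCast_dvd_natCast.2 (Nat.gcd_dvd_right d n)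
        simp [Int.neg_ediv_of_dvd hd]
  have hden : Primrec (fun p : ℤ × ℕ => (mkRat p.1 p.2).den) :=
    (Primrec.ite hz (Primrec.const 1) (Primrec.nat_div.comp Primrec.snd hg)).of_eq
      fun p => by simp only [Rat.den_mkRat]
  refine ((nat_count isRatCode_primrec).comp
    (Primrec₂.natPair.comp (Primrec.encode.comp hnum) hden)).to₂.of_eq ?_
  intro z d
  rw [rat_encode_eq]
  rfl

theorem rat_intCast : Primrec (fun z : ℤ => (z : ℚ)) :=
  (rat_mkRat.comp Primrec.id (Primrec.const 1)).of_eq fun z => by simp [Rat.mkRat_eq_div]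

theorem rat_natCast : Primrec (fun n : ℕ => (n : ℚ)) :=
  (rat_intCast.comp int_natCast).of_eq fun z => by simp

theorem rat_neg : Primrec (fun q : ℚ => -q) :=
  (rat_mkRat.comp (int_neg.comp rat_num) rat_den).of_eq fun q => by
    rw [Rat.mkRat_eq_div]; push_cast; rw [neg_div, Rat.num_div_den]

theorem rat_add : Primrec₂ ((· + ·) : ℚ → ℚ → ℚ) :=
  (rat_mkRat.comp
    (int_add.comp
      (int_mul.comp (rat_num.comp Primrec.fst) (int_natCast.comp (rat_den.comp Primrec.snd)))
      (int_mul.comp (rat_num.comp Primrec.snd) (int_natCast.comp (rat_den.comp Primrec.fst))))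
    (Primrec.nat_mul.comp (rat_den.comp Primrec.fst)
      (rat_den.comp Primrec.snd))).to₂.of_eq fun q r => by
    rw [Rat.mkRat_eq_div]
    have hq : (q.den : ℚ) ≠ 0 := by exact_mod_cast q.den_nz
    have hr : (r.den : ℚ) ≠ 0 := by exact_mod_cast r.den_nz
    push_cast
    conv_rhs => rw [← Rat.num_div_den q, ← Rat.num_div_den r]
    field_simp

theorem rat_mul : Primrec₂ ((· * ·) : ℚ → ℚ → ℚ) :=
  (rat_mkRat.comp
    (int_mul.comp (rat_num.comp Primrec.fst) (rat_num.comp Primrec.snd))
    (Primrec.nat_mul.comp (rat_den.comp Primrec.fst)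
      (rat_den.comp Primrec.snd))).to₂.of_eq fun q r => by
    rw [Rat.mkRat_eq_div]
    push_cast
    conv_rhs => rw [← Rat.num_div_den q, ← Rat.num_div_den r]
    rw [div_mul_div_comm]

theorem rat_sub : Primrec₂ ((· - ·) : ℚ → ℚ → ℚ) :=
  (rat_add.comp Primrec.fst (rat_neg.comp Primrec.snd)).to₂.of_eq fun q r => by
    simp [sub_eq_add_neg]

theorem rat_inv : Primrec (fun q : ℚ => q⁻¹) :=
  (rat_mkRat.comp (int_mul.comp rat_num (int_natCast.comp rat_den))
    (Primrec.nat_mul.comp (int_natAbs.comp rat_num) (int_natAbs.comp rat_num))).of_eq fun q => by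
    rw [Rat.mkRat_eq_div]
    have h2 : (((q.num.natAbs * q.num.natAbs : ℕ)) : ℚ) = (q.num : ℚ) * q.num := by
      have := congrArg (fun z : ℤ => (z : ℚ)) (Int.natAbs_mul_self' q.num)
      simpa only [Int.cast_mul, Int.cast_natCast, Nat.cast_mul] using this
    rw [h2]
    by_cases h0 : q.num = 0
    · have : q = 0 := Rat.zero_of_num_zero h0
      subst this; simp
    · have hn : (q.num : ℚ) ≠ 0 := by exact_mod_cast h0
      push_cast
      conv_rhs => rw [← Rat.num_div_den q, inv_div]
      field_simp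

theorem rat_div : Primrec₂ ((· / ·) : ℚ → ℚ → ℚ) :=
  (rat_mul.comp Primrec.fst (rat_inv.comp Primrec.snd)).to₂.of_eq fun q r => by
    simp [div_eq_mul_inv]

theorem rat_le : PrimrecRel ((· ≤ ·) : ℚ → ℚ → Prop) :=
  (int_le.comp
    (int_mul.comp (rat_num.comp Primrec.fst) (int_natCast.comp (rat_den.comp Primrec.snd)))
    (int_mul.comp (rat_num.comp Primrec.snd)
      (int_natCast.comp (rat_den.comp Primrec.fst)))).primrecRel.of_eq fun q r => by
    simp only [Rat.le_iff]

theorem rat_lt : PrimrecRel ((· < ·) : ℚ → ℚ → Prop) :=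
  (PrimrecPred.not (rat_le.comp Primrec.snd Primrec.fst)).primrecRel.of_eq fun q r => by
    simp only [not_le]

theorem rat_max : Primrec₂ (max : ℚ → ℚ → ℚ) :=
  (Primrec.ite (rat_le.comp Primrec.fst Primrec.snd) Primrec.snd Primrec.fst).to₂.of_eq
    fun q r => by simp only [max_def]

theorem rat_min : Primrec₂ (min : ℚ → ℚ → ℚ) :=
  (Primrec.ite (rat_le.comp Primrec.fst Primrec.snd) Primrec.fst Primrec.snd).to₂.of_eq
    fun q r => by simp only [min_def]

theorem rat_abs : Primrec (fun q : ℚ => |q|) :=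
  (rat_max.comp Primrec.id rat_neg).of_eq fun q => by simp only [id, abs_eq_max_neg]

theorem rat_pow : Primrec₂ (fun (q : ℚ) (n : ℕ) => q ^ n) := by
  have h := Primrec.nat_iterate (α := ℚ × ℕ) (β := ℚ) (f := fun p => p.2) (g := fun _ => 1)
    (h := fun p x => p.1 * x) Primrec.snd (Primrec.const 1)
    (rat_mul.comp (Primrec.fst.comp Primrec.fst) Primrec.snd).to₂
  refine h.to₂.of_eq fun q n => ?_
  simp only
  induction n with
  | zero => simp
  | succ n ih => rw [Function.iterate_succ_apply', ih, pow_succ']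

theorem rat_list_sum : Primrec (fun l : List ℚ => l.sum) := by
  have h := Primrec.list_foldr (α := List ℚ) (β := ℚ) (σ := ℚ) (f := fun l => l) (g := fun _ => 0)
    (h := fun _ p => p.1 + p.2) Primrec.id (Primrec.const 0)
    (rat_add.comp (Primrec.fst.comp Primrec.snd) (Primrec.snd.comp Primrec.snd)).to₂
  refine h.of_eq fun l => ?_
  induction l with
  | nil => rfl
  | cons a l ih => simp only [List.foldr_cons, List.sum_cons, ih]

end Crest.Agent.Lib.Computability
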